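import Vale.Agent.P092.CL.Main
import Vale.Agent.P092.H99.CLX.One

/-!
P092, TEAM P, TRACK H (helper99): the picture over a source group with the extra property `X` of the
letters of points (`HalfStmtX`, `ExStmtX`, `exStmtX_of_half`), and the assembly `coreE_ofX`.
-/

set_option linter.all false

open scoped InnerProductSpace ENNReal LinearAlgebra.Projectivization ZeroAtInfty
open Filter Topology ContinuousLinearMap MeasureTheory TopologicalSpace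

namespace Vale.Agent.P092.H99.CLX

open Vale.Agent.P092.CL
open Vale.Agent.P092.RC (Cm TRN Moore GG PG YY Tw cj)
open Vale.Agent.P092.H53.TwX (cjU)
open Vale.Agent.P092.H35 (sp)
open Vale.Agent.P092.H303 (FormGroup)
open Vale.Agent.P092.H370.Po
open Vale.Agent.P092.H714.Cl (hf Frm)
open Vale.Agent.P092.H416.CL (pt rho EP)
open Vale.Agent.P092.H325.CL (Sc Nmc ph_rho fin_rho xcL)
open Vale.Agent.P092.SN (TVE CoreE CY)

section stmts

open Vale.Agent.P092.SR Vale.Agent.P092.H160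
open Vale.Agent.P092.RC (KK pic lam₁ lam₂ XX Om)

variable {S P M V₁ V₂ : Type} [Group S] [MeasurableSpace V₁] [MeasurableSpace V₂]
  [TopologicalSpace S] [MulAction S P] [TopologicalSpace P] [CompactSpace P]
  [ContinuousConstSMul S P] [MulAction S M] [TopologicalSpace M] [CompactSpace M]
  [ContinuousConstSMul S M] [NormedAddCommGroup V₁] [NormedAddCommGroup V₂]

/-- the concrete picture over a source group `E`: both legs, with the extra property -/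
def ExStmtX (X : Xtra P M) (L : Lt S P M V₁ V₂) {E : Type} [Group E] [TopologicalSpace E]
    [IsTopologicalGroup E] [LocallyCompactSpace E] [SecondCountableTopology E] [T2Space E]
    (ι : S →* E) : Prop :=
  ∀ [MeasurableSpace E] [BorelSpace E] {Γ : Subgroup E} [DiscreteTopology Γ] [Countable Γ]
    [MeasurableSpace (E ⧸ Γ)] [BorelSpace (E ⧸ Γ)] {ν : Measure (E ⧸ Γ)}
    [IsProbabilityMeasure ν] (hν : ∀ g : E, ν.map (fun x => g • x) = ν)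
    (_ : H515.St.IsLattice Γ) (_ : ∀ g : Γ, g ≠ 1 → Set.Infinite {y : Γ | ∃ h, y = h * g * h⁻¹})
    {Λ : Type} [Group Λ] [Countable Λ]
    (_ : ∀ g : Λ, g ≠ 1 → Set.Infinite {y : Λ | ∃ h, y = h * g * h⁻¹})
    {α : Γ →* (Ell2 Λ →L[ℂ] Ell2 Λ)} (hα : Frame α),
    ∃ (𝒰 : Ultrafilter ℕ) (m₁ m₂ : Set Γ → (KK ν Λ →L[ℂ] KK ν Λ)) (q₁ q₂ : Γ → S),
      HasLegX X L 𝒰 ι (pic hν hα) (lam₁ ν α) (XX ν Λ ∪ Set.range (lam₂ ν α)) (Om ν Λ) m₁ q₁ ∧
      HasLegX X L 𝒰 ι (pic hν hα) (lam₂ ν α) (XX ν Λ ∪ Set.range (lam₁ ν α)) (Om ν Λ) m₂ q₂ ∧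
      (∀ γ, q₁ γ ∈ L.Z → γ = 1) ∧ (∀ γ, q₂ γ ∈ L.Z → γ = 1)

/-- the same for the first leg -/
def HalfStmtX (X : Xtra P M) (L : Lt S P M V₁ V₂) {E : Type} [Group E] [TopologicalSpace E]
    [IsTopologicalGroup E] [LocallyCompactSpace E] [SecondCountableTopology E] [T2Space E]
    (ι : S →* E) : Prop :=
  ∀ [MeasurableSpace E] [BorelSpace E] {Γ : Subgroup E} [DiscreteTopology Γ] [Countable Γ]
    [MeasurableSpace (E ⧸ Γ)] [BorelSpace (E ⧸ Γ)] {ν : Measure (E ⧸ Γ)}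
    [IsProbabilityMeasure ν] (hν : ∀ g : E, ν.map (fun x => g • x) = ν)
    (_ : H515.St.IsLattice Γ) (_ : ∀ g : Γ, g ≠ 1 → Set.Infinite {y : Γ | ∃ h, y = h * g * h⁻¹})
    {Λ : Type} [Group Λ] [Countable Λ]
    (_ : ∀ g : Λ, g ≠ 1 → Set.Infinite {y : Λ | ∃ h, y = h * g * h⁻¹})
    {α : Γ →* (Ell2 Λ →L[ℂ] Ell2 Λ)} (hα : Frame α),
    ∃ (𝒰 : Ultrafilter ℕ) (m : Set Γ → (KK ν Λ →L[ℂ] KK ν Λ)) (q : Γ → S),
      HasLegX X L 𝒰 ι (pic hν hα) (lam₁ ν α) (XX ν Λ ∪ Set.range (lam₂ ν α)) (Om ν Λ) m q ∧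
      (∀ γ, q γ ∈ L.Z → γ = 1)

/-- the extra property is invariant under transport along a unitary -/
def XInv (X : Xtra P M) : Prop :=
  ∀ {K K' : Type} [NormedAddCommGroup K] [InnerProductSpace ℂ K] [CompleteSpace K]
    [NormedAddCommGroup K'] [InnerProductSpace ℂ K'] [CompleteSpace K'] (u : K ≃ₗᵢ[ℂ] K')
    (U : P → (C(P, ℂ) →ₗ[ℂ] (K →L[ℂ] K))) (V : M → (C(P, ℂ) →ₗ[ℂ] (K →L[ℂ] K))),
    X U V → X (fun c => cjU u (U c)) (fun l => cjU u (V l))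

theorem tw_hasLegX {X : Xtra P M} (hX : XInv X) {K K' : Type} [NormedAddCommGroup K]
    [InnerProductSpace ℂ K] [CompleteSpace K] [NormedAddCommGroup K'] [InnerProductSpace ℂ K']
    [CompleteSpace K'] {u : K ≃ₗᵢ[ℂ] K'} {E Γ : Type} [Group E] [TopologicalSpace E] [Group Γ]
    {π : E →* (K →L[ℂ] K)} {lam : Γ →* (K →L[ℂ] K)} {W : Set (K →L[ℂ] K)} {Ω : K}
    {π' : E →* (K' →L[ℂ] K')} {lam' : Γ →* (K' →L[ℂ] K')} {W' : Set (K' →L[ℂ] K')} {Ω' : K'}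
    {q : Γ → S} {𝒰 : Ultrafilter ℕ} {m : Set Γ → (K →L[ℂ] K)} {ι : S →* E}
    {L : Lt S P M V₁ V₂} (t : Tw u π lam W Ω π' lam' W' Ω')
    (h : HasLegX X L 𝒰 ι π lam W Ω m q) :
    HasLegX X L 𝒰 ι π' lam' W' Ω' (fun T => cj u (m T)) q := by
  obtain ⟨U11, p11, U12, p12, U21, p21, U22, p22, h, hx⟩ := h
  exact ⟨_, p11, _, p12, _, p21, _, p22, Tw.tw_legP t h, hX u U11 U21 hx⟩

/-- both legs from the first one -/
theorem exStmtX_of_half {X : Xtra P M} (hX : XInv X) {L : Lt S P M V₁ V₂} {E : Type} [Group E]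
    [TopologicalSpace E] [IsTopologicalGroup E] [LocallyCompactSpace E]
    [SecondCountableTopology E] [T2Space E] {ι : S →* E} (h : HalfStmtX X L ι) :
    ExStmtX X L ι := by
  intro _ _ Γ _ _ _ _ ν _ hν hΓ hicc Λ _ _ hΛ α hα
  obtain ⟨𝒰, m, q, h1, h2⟩ := h hν hΓ hicc hΛ hα
  exact ⟨𝒰, m, _, q, q, h1, tw_hasLegX hX (SD.tw_flK hν hα) h1, h2, h2⟩

end stmts

section main

variable {n : Type} [Fintype n] [DecidableEq n] {k : Type} [NontriviallyNormedField k]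
  [ProperSpace k] {σ : k →+* k} [Fact (Continuous σ)] {ε : k} {J : Matrix n n k} {N r : ℕ}
  {M V₁ V₂ : Type} [MeasurableSpace V₁] [MeasurableSpace V₂] [NormedAddCommGroup V₁]
  [NormedAddCommGroup V₂] [TopologicalSpace M] [CompactSpace M] [MulAction (FormGroup σ J) M]
  [ContinuousConstSMul (FormGroup σ J) M] {L : Lt (FormGroup σ J) (SGr σ J 1) M V₁ V₂}
  {X : Xtra (SGr σ J 1) M}

open Vale.Agent.P092.SR Vale.Agent.P092.H160 in
open Vale.Agent.P092.RC (KK pic lam₁ lam₂ XX Om) in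
/-- **Assembly from legs with the extra property.** -/
theorem coreE_ofX {E : Type} [Group E] [TopologicalSpace E] [IsTopologicalGroup E]
    [LocallyCompactSpace E] [SecondCountableTopology E] [T2Space E] {ι : FormGroup σ J →* E}
    (e : n ≃ Fin (N + 1)) (hF : Frm σ ε J) (hW : WI σ J r) (hr : 2 ≤ r) (hG : Geo L)
    (hA : Adm L ι) (hZ : Sc e L) (hN : Nmc e L) (hOne : OneStmtX X L) (hCls : ClsStmt e L)
    (hEx : ExStmtX X L ι) : CoreE E := by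
  haveI : NoncompactSpace E := nc_E hG hA
  intro Γ hΓ hicc Λ _ _ hΛ α hα
  letI : MeasurableSpace E := borel _
  haveI : BorelSpace E := ⟨rfl⟩
  haveI hd : DiscreteTopology Γ := hΓ.disc
  haveI hc : Countable Γ := H790.countable_of_discrete (E := E) Γ
  letI : MeasurableSpace (E ⧸ Γ) := borel _
  haveI : BorelSpace (E ⧸ Γ) := ⟨rfl⟩
  obtain ⟨ν, hP', hν⟩ := H515.IsLattice.exists_prob (Λ := Γ) ⟨hΓ.disc, hΓ.covol⟩
  have tv1 : TVE (pic hν hα) (lam₁ ν α) (XX ν Λ ∪ Set.range (lam₂ ν α)) (Om ν Λ) := by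
    rintro Y ⟨hY, hY1⟩ h
    exact H103.tv_gen hν hα (fun A hA => hY _ (Or.inl ⟨A, hA, rfl⟩)) hY1
      (fun g => hY _ (Or.inr ⟨g, rfl⟩)) h
  obtain ⟨𝒰, m₁, m₂, q₁, q₂, l1, l2, i1, i2⟩ := hEx (Γ := Γ) hν hΓ hicc hΛ hα
  obtain ⟨E₁, F₁, c1⟩ := hOne 𝒰 ι _ _ _ _ m₁ q₁ l1
  obtain ⟨E₂, F₂, c2⟩ := hOne 𝒰 ι _ _ _ _ m₂ q₂ l2
  obtain ⟨σ₁, Q₁, hQ1⟩ := hCls 𝒰 ι _ _ _ _ m₁ q₁ E₁ F₁ c1
  obtain ⟨σ₂, Q₂, hQ2⟩ := hCls 𝒰 ι _ _ _ _ m₂ q₂ E₂ F₂ c2
  have hX := xcL e hF hW hr hZ hN c1.leg.base c2.leg.base tv1 hQ1 hQ2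
  exact H264.Cl.mono_of_legs hν hα
    (cleg_of e hQ1 hA.sur (ph_rho hZ c1.leg.base.ph) (fun γ h => i1 γ (z_of_sp e hG h))
      (fin_rho hN c1.leg.base.fin))
    (cleg_of e hQ2 hA.sur (ph_rho hZ c2.leg.base.ph) (fun γ h => i2 γ (z_of_sp e hG h))
      (fin_rho hN c2.leg.base.fin)) hX

end main

end Vale.Agent.P092.H99.CLX
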